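import Vale.Agent.P247.H914.Orb
import Vale.Agent.P247.H324.MG.Def

/-!
# `ORB_statement`
-/

namespace Vale.Agent.P247.H914

theorem ORB : Vale.Agent.P247.H324.ORB_statement :=
  fun m0 hm V q r S hq hr hc hd hV => orb_main m0 hm V q r S hq hr hc hd hV

end Vale.Agent.P247.H914
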