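import Mathlib

/-!
# Orbits of the rotation on finitely many continuous functions on the punctured disc
-/

open Set Metric Filter Topology

noncomputable section

namespace Vale.Agent.P247.H914

/-- punctured ball -/
def pb (r : ℝ) : Set ℂ := ball 0 r \ {0}

theorem mem_pb {r : ℝ} {t : ℂ} : t ∈ pb r ↔ ‖t‖ < r ∧ t ≠ 0 := by
  simp [pb]

theorem isOpen_pb (r : ℝ) : IsOpen (pb r) := isOpen_ball.sdiff isClosed_singleton

theorem preconn_pb {r : ℝ} (hr : 0 < r) : IsPreconnected (pb r) := by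
  have h : Complex.exp '' {w : ℂ | w.re < Real.log r} = pb r := by
    ext t
    rw [mem_pb]
    constructor
    · rintro ⟨w, hw, rfl⟩
      refine ⟨?_, Complex.exp_ne_zero _⟩
      rw [Complex.norm_exp]
      exact (Real.lt_log_iff_exp_lt hr).1 hw
    · rintro ⟨h1, h2⟩
      refine ⟨Complex.log t, ?_, Complex.exp_log h2⟩
      show (Complex.log t).re < Real.log r
      rw [Complex.log_re]
      exact Real.log_lt_log (norm_pos_iff.2 h2) h1
  rw [← h]
  exact (convex_halfSpace_re_lt _).isPreconnected.image _ Complex.continuous_exp.continuousOn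

/-- clopen argument -/
theorem glob {r : ℝ} (hr : 0 < r) (D : Finset (ℂ → ℂ)) (hc : ∀ f ∈ D, ContinuousOn f (pb r))
    (hd : ∀ f ∈ D, ∀ h ∈ D, ∀ t ∈ pb r, f t = h t → f = h) (F : ℂ → ℂ) (hF : ContinuousOn F (pb r))
    (h0 : ∀ t ∈ pb r, ∃ f ∈ D, f t = F t) : ∃ f ∈ D, ∀ t ∈ pb r, f t = F t := by
  classical
  have hne : (((r / 2 : ℝ)) : ℂ) ∈ pb r := by
    rw [mem_pb]
    refine ⟨?_, by exact_mod_cast (by positivity : (r / 2 : ℝ) ≠ 0)⟩
    rw [Complex.norm_real, Real.norm_eq_abs, abs_of_pos (by positivity)]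
    linarith
  obtain ⟨f, hf, hf0⟩ := h0 _ hne
  refine ⟨f, hf, ?_⟩
  have : PreconnectedSpace (pb r) := Subtype.preconnectedSpace (preconn_pb hr)
  have hcl : ∀ h ∈ D, IsClosed {x : pb r | h x = F x} := fun h hh =>
    isClosed_eq (continuousOn_iff_continuous_domRestrict.1 (hc h hh))
      (continuousOn_iff_continuous_domRestrict.1 hF)
  have hco : {x : pb r | f x = F x}ᶜ = ⋃ h ∈ D.erase f, {x : pb r | h x = F x} := by
    ext x
    simp only [mem_compl_iff, Set.mem_ofPred_eq, mem_iUnion, exists_prop, Finset.mem_erase]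
    constructor
    · intro hx
      obtain ⟨h, hh, hx'⟩ := h0 x.1 x.2
      exact ⟨h, ⟨fun e => hx (e ▸ hx'), hh⟩, hx'⟩
    · rintro ⟨h, ⟨hne, hh⟩, hx⟩ hx'
      exact hne (hd h hh f hf x.1 x.2 (hx.trans hx'.symm))
  have hclopen : IsClopen {x : pb r | f x = F x} := by
    refine ⟨hcl f hf, ?_⟩
    rw [← isClosed_compl_iff, hco]
    exact isClosed_biUnion_finset fun h hh => hcl h (Finset.mem_of_mem_erase hh)
  rcases isClopen_iff.1 hclopen with h | h
  · exact absurd (show (⟨_, hne⟩ : pb r) ∈ {x : pb r | f x = F x} from hf0) (by rw [h]; simp)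
  · intro t ht
    have : (⟨t, ht⟩ : pb r) ∈ {x : pb r | f x = F x} := by rw [h]; trivial
    exact this

/-- the rotation -/
def om (q : ℕ) : ℂ := Complex.exp (2 * Real.pi * Complex.I / q)

theorem om_pow {q : ℕ} (hq : 1 ≤ q) : om q ^ q = 1 := by
  have : (q : ℂ) ≠ 0 := by exact_mod_cast (by omega : q ≠ 0)
  rw [om, ← Complex.exp_nat_mul, mul_div_cancel₀ _ this, Complex.exp_two_pi_mul_I]

theorem norm_om (q : ℕ) : ‖om q‖ = 1 := by
  rw [om, show 2 * (Real.pi : ℂ) * Complex.I / q = ((2 * Real.pi / q : ℝ) : ℂ) * Complex.I by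
    push_cast; ring, Complex.norm_exp_ofReal_mul_I]

theorem om_ne (q : ℕ) : om q ≠ 0 := by
  intro h
  have := norm_om q
  rw [h] at this
  simp at this

theorem prim_om {q : ℕ} (hq : 1 ≤ q) : IsPrimitiveRoot (om q) q :=
  Complex.isPrimitiveRoot_exp q (by omega)

/-- two `q`-th roots of the same non-zero number differ by a power of `om q` -/
theorem root_eq {q : ℕ} (hq : 1 ≤ q) {t t' : ℂ} (ht : t ≠ 0) (h : t ^ q = t' ^ q) :
    ∃ a < q, t' = om q ^ a * t := by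
  have h1 : (t' / t) ^ q = 1 := by
    rw [div_pow, h]
    refine div_self (pow_ne_zero _ ?_)
    rintro rfl
    rw [zero_pow (by omega)] at h
    exact ht (pow_eq_zero_iff (by omega) |>.1 h)
  have : NeZero q := ⟨by omega⟩
  obtain ⟨a, ha, hh⟩ := (prim_om hq).eq_pow_of_pow_eq_one h1
  exact ⟨a, ha, by rw [hh, div_mul_cancel₀ _ ht]⟩

/-- rotation of functions -/
def rho (q : ℕ) (f : ℂ → ℂ) : ℂ → ℂ := fun t => f (om q * t)

theorem rho_iter (q : ℕ) (f : ℂ → ℂ) (j : ℕ) (t : ℂ) :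
    (rho q)^[j] f t = f (om q ^ j * t) := by
  induction j generalizing f with
  | zero => simp
  | succ j ih =>
    rw [Function.iterate_succ_apply, ih, rho, ← mul_assoc, ← pow_succ']

theorem rho_q {q : ℕ} (hq : 1 ≤ q) (f : ℂ → ℂ) : (rho q)^[q] f = f := by
  funext t
  rw [rho_iter, om_pow hq, one_mul]

theorem om_pb {q : ℕ} {r : ℝ} {t : ℂ} (j : ℕ) (ht : t ∈ pb r) : om q ^ j * t ∈ pb r := by
  rw [mem_pb] at ht ⊢
  rw [norm_mul, norm_pow, norm_om, one_pow, one_mul]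
  exact ⟨ht.1, mul_ne_zero (pow_ne_zero _ (om_ne q)) ht.2⟩

/-- shift of a periodic sum -/
theorem sum_shift {M : Type*} [AddCommMonoid M] [IsRightCancelAdd M] {k : ℕ} (F : ℕ → M)
    (hF : ∀ j, F (j + k) = F j) (a : ℕ) :
    ∑ j ∈ Finset.range k, F (j + a) = ∑ j ∈ Finset.range k, F j := by
  induction a with
  | zero => rfl
  | succ a ih =>
    rw [← ih]
    have h1 := Finset.sum_range_succ (fun j => F (j + a)) k
    have h2 := Finset.sum_range_succ' (fun j => F (j + a)) k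
    rw [h1, add_comm k a, hF a, zero_add] at h2
    have := add_right_cancel h2
    rw [this]
    exact Finset.sum_congr rfl fun j _ => by rw [add_right_comm, add_assoc]

/-- same orbit -/
def st (q : ℕ) (hq : 1 ≤ q) : Setoid (ℂ → ℂ) where
  r f h := ∃ j : ℕ, (rho q)^[j] f = h
  iseqv :=
    { refl := fun f => ⟨0, rfl⟩
      symm := by
        rintro f h ⟨j, rfl⟩
        refine ⟨(q - 1) * j, ?_⟩
        rw [← Function.iterate_add_apply,
          show (q - 1) * j + j = q * j by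
            obtain ⟨p, rfl⟩ : ∃ p, q = p + 1 := ⟨q - 1, by omega⟩
            simp; ring, Function.iterate_mul]
        exact Function.iterate_fixed (rho_q hq f) j
      trans := by
        rintro f h g ⟨j, rfl⟩ ⟨i, rfl⟩
        exact ⟨i + j, Function.iterate_add_apply _ _ _ _⟩ }

/-- representative of the orbit -/
def rep (q : ℕ) (hq : 1 ≤ q) (f : ℂ → ℂ) : ℂ → ℂ :=
  Quotient.out (Quotient.mk (st q hq) f)

theorem rep_rel {q : ℕ} (hq : 1 ≤ q) (f : ℂ → ℂ) : ∃ j : ℕ, (rho q)^[j] (rep q hq f) = f :=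
  Quotient.exact (s := st q hq) (Quotient.out_eq (Quotient.mk (st q hq) f))

theorem rel_rep {q : ℕ} (hq : 1 ≤ q) (f : ℂ → ℂ) : ∃ j : ℕ, (rho q)^[j] f = rep q hq f :=
  (st q hq).iseqv.symm (rep_rel hq f)

theorem rep_eq {q : ℕ} (hq : 1 ≤ q) (f : ℂ → ℂ) (j : ℕ) :
    rep q hq ((rho q)^[j] f) = rep q hq f := by
  have : Quotient.mk (st q hq) f = Quotient.mk (st q hq) ((rho q)^[j] f) :=
    Quotient.sound (s := st q hq) ⟨j, rfl⟩
  rw [rep, rep, this]

theorem rep_rep {q : ℕ} (hq : 1 ≤ q) (f : ℂ → ℂ) : rep q hq (rep q hq f) = rep q hq f := by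
  obtain ⟨j, hj⟩ := rel_rep hq f
  have := rep_eq hq f j
  rwa [hj] at this

/-- period -/
def per (q : ℕ) (f : ℂ → ℂ) : ℕ := Function.minimalPeriod (rho q) f

theorem per_dvd {q : ℕ} (hq : 1 ≤ q) (f : ℂ → ℂ) : per q f ∣ q :=
  Function.IsPeriodicPt.minimalPeriod_dvd (rho_q hq f)

theorem per_pos {q : ℕ} (hq : 1 ≤ q) (f : ℂ → ℂ) : 1 ≤ per q f :=
  Function.IsPeriodicPt.minimalPeriod_pos (by omega : 0 < q) (rho_q hq f)

theorem per_iter {q : ℕ} {f : ℂ → ℂ} {a : ℕ} (h : (rho q)^[a] f = f) : per q f ∣ a :=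
  Function.IsPeriodicPt.minimalPeriod_dvd h

theorem iter_per (q : ℕ) (f : ℂ → ℂ) : (rho q)^[per q f] f = f :=
  Function.isPeriodicPt_minimalPeriod _ _

open Classical in
/-- representatives in `D` -/
def reps (q : ℕ) (hq : 1 ≤ q) (D : Finset (ℂ → ℂ)) : Finset (ℂ → ℂ) := D.image (rep q hq)

theorem iter_mem {q : ℕ} {D : Finset (ℂ → ℂ)} (hD : ∀ f ∈ D, rho q f ∈ D) {f : ℂ → ℂ}
    (hf : f ∈ D) (j : ℕ) : (rho q)^[j] f ∈ D := by
  induction j with
  | zero => exact hf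
  | succ j ih =>
    rw [Function.iterate_succ_apply']
    exact hD _ ih

theorem reps_mem {q : ℕ} (hq : 1 ≤ q) {D : Finset (ℂ → ℂ)} (hD : ∀ f ∈ D, rho q f ∈ D)
    {g : ℂ → ℂ} (hg : g ∈ reps q hq D) : g ∈ D ∧ rep q hq g = g := by
  classical
  rw [reps, Finset.mem_image] at hg
  obtain ⟨f, hf, rfl⟩ := hg
  obtain ⟨j, hj⟩ := rel_rep hq f
  exact ⟨hj ▸ iter_mem hD hf j, rep_rep hq f⟩

theorem orbit_sum {M : Type*} [AddCommMonoid M] {q : ℕ} (hq : 1 ≤ q) {D : Finset (ℂ → ℂ)}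
    (hD : ∀ f ∈ D, rho q f ∈ D) (F : (ℂ → ℂ) → M) :
    ∑ f ∈ D, F f = ∑ g ∈ reps q hq D, ∑ j ∈ Finset.range (per q g), F ((rho q)^[j] g) := by
  classical
  rw [← Finset.sum_fiberwise_of_maps_to (s := D) (t := reps q hq D) (g := rep q hq)
    (fun f hf => Finset.mem_image_of_mem _ hf) F]
  refine Finset.sum_congr rfl fun g hg => ?_
  obtain ⟨hgD, hgr⟩ := reps_mem hq hD hg
  have : (D.filter fun f => rep q hq f = g) =
      (Finset.range (per q g)).image fun j => (rho q)^[j] g := by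
    ext f
    rw [Finset.mem_filter, Finset.mem_image]
    constructor
    · rintro ⟨hf, hfg⟩
      obtain ⟨j, hj⟩ := rep_rel hq f
      rw [hfg] at hj
      refine ⟨j % per q g, Finset.mem_range.2 (Nat.mod_lt _ (per_pos hq g)), ?_⟩
      rw [← hj]
      exact Function.iterate_mod_minimalPeriod_eq
    · rintro ⟨j, -, rfl⟩
      exact ⟨iter_mem hD hgD j, by rw [rep_eq, hgr]⟩
  rw [this, Finset.sum_image]
  intro a ha b hb hab
  refine Function.iterate_injOn_Iio_minimalPeriod (f := rho q) (x := g) ?_ ?_ hab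
  · exact Finset.mem_range.1 ha
  · exact Finset.mem_range.1 hb

/-! ### the root of `1 + m0 conj z / z` -/

/-- the factor -/
def cc (m0 : ℂ) (q : ℕ) (z : ℂ) : ℂ := (1 + m0 * (starRingEnd ℂ) z / z) ^ ((q : ℂ)⁻¹)

theorem slit_of {w : ℂ} (hw : ‖w‖ < 1) : 1 + w ∈ Complex.slitPlane := by
  left
  have := (abs_le.1 (Complex.abs_re_le_norm w)).1
  simp only [Complex.add_re, Complex.one_re]
  linarith

theorem norm_q {m0 z : ℂ} (hz : z ≠ 0) : ‖m0 * (starRingEnd ℂ) z / z‖ = ‖m0‖ := by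
  rw [norm_div, norm_mul, RCLike.norm_conj, mul_div_cancel_right₀ _ (norm_ne_zero_iff.2 hz)]

theorem cc_pow {m0 : ℂ} {q : ℕ} (hq : 1 ≤ q) {z : ℂ} :
    cc m0 q z ^ q = 1 + m0 * (starRingEnd ℂ) z / z :=
  Complex.cpow_nat_inv_pow _ (by omega)

theorem cc_cont {m0 : ℂ} (hm : ‖m0‖ < 1) {q : ℕ} {z : ℂ} (hz : z ≠ 0) :
    ContinuousAt (cc m0 q) z := by
  have h1 : ContinuousAt (fun z => 1 + m0 * (starRingEnd ℂ) z / z) z :=
    continuousAt_const.add ((continuousAt_const.mul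
      Complex.continuous_conj.continuousAt).div continuousAt_id hz)
  exact h1.cpow continuousAt_const (slit_of (by rw [norm_q hz]; exact hm))

theorem cc_ne {m0 : ℂ} (hm : ‖m0‖ < 1) {q : ℕ} (hq : 1 ≤ q) {z : ℂ} (hz : z ≠ 0) :
    cc m0 q z ≠ 0 := by
  intro h
  have h1 := cc_pow (m0 := m0) hq (z := z)
  rw [h, zero_pow (by omega)] at h1
  have := slit_of (w := m0 * (starRingEnd ℂ) z / z) (by rw [norm_q hz]; exact hm)
  rw [← h1] at this
  simp at this

theorem cc_mul {m0 : ℂ} (hm : ‖m0‖ < 1) {q : ℕ} (hq : 1 ≤ q) {r : ℝ} (hr : 0 < r) {z τ : ℂ}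
    (hz : z ≠ 0) (hz' : ‖z‖ < r ^ q / 2) (hτ : τ ^ q = z) :
    τ * cc m0 q z ∈ pb r ∧ z + m0 * (starRingEnd ℂ) z = (τ * cc m0 q z) ^ q := by
  have h1 : z + m0 * (starRingEnd ℂ) z = (τ * cc m0 q z) ^ q := by
    rw [mul_pow, hτ, cc_pow hq]
    field_simp
  refine ⟨mem_pb.2 ⟨?_, ?_⟩, h1⟩
  · refine lt_of_pow_lt_pow_left₀ q hr.le ?_
    rw [← norm_pow, ← h1]
    calc ‖z + m0 * (starRingEnd ℂ) z‖ ≤ ‖z‖ + ‖m0 * (starRingEnd ℂ) z‖ := norm_add_le _ _
      _ = ‖z‖ + ‖m0‖ * ‖z‖ := by rw [norm_mul, RCLike.norm_conj]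
      _ ≤ ‖z‖ + 1 * ‖z‖ := by gcongr
      _ < r ^ q := by linarith
  · refine mul_ne_zero ?_ (cc_ne hm hq hz)
    rintro rfl
    rw [zero_pow (by omega)] at hτ
    exact hz hτ.symm

/-! ### the branch -/

/-- the branch of `g` in the variable `s`, `s ^ per g = z` -/
def br (m0 : ℂ) (q : ℕ) (g : ℂ → ℂ) (s : ℂ) : ℂ :=
  g (s ^ (((q / per q g : ℕ) : ℂ)⁻¹) * cc m0 q (s ^ per q g))

theorem om_dvd {q k : ℕ} (hq : 1 ≤ q) (hk : k ∣ q) : om (q / k) = om q ^ k := by
  obtain ⟨e, rfl⟩ := hk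
  have hk0 : k ≠ 0 := by rintro rfl; simp at hq
  have he0 : e ≠ 0 := by rintro rfl; simp at hq
  rw [Nat.mul_div_cancel_left _ (by omega), om, om, ← Complex.exp_nat_mul]
  congr 1
  have h1 : (k : ℂ) ≠ 0 := by exact_mod_cast hk0
  have h2 : (e : ℂ) ≠ 0 := by exact_mod_cast he0
  push_cast
  field_simp

theorem per_mul {q : ℕ} (g : ℂ → ℂ) (a : ℕ) (t : ℂ) : g (om q ^ (per q g * a) * t) = g t := by
  have h := rho_iter q g (per q g * a) t
  rw [Function.iterate_mul, Function.iterate_fixed (iter_per q g) a] at h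
  exact h.symm

theorem br_eq {m0 : ℂ} {q : ℕ} (hq : 1 ≤ q) (g : ℂ → ℂ) {s τ : ℂ} (hs : s ≠ 0)
    (hτ : τ ^ (q / per q g) = s) : br m0 q g s = g (τ * cc m0 q (s ^ per q g)) := by
  have he : 1 ≤ q / per q g := Nat.div_pos (Nat.le_of_dvd (by omega) (per_dvd hq g)) (per_pos hq g)
  have h1 : (s ^ (((q / per q g : ℕ) : ℂ)⁻¹)) ^ (q / per q g) = s :=
    Complex.cpow_nat_inv_pow _ (by omega)
  have hτ0 : τ ≠ 0 := by
    rintro rfl
    rw [zero_pow (by omega)] at hτ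
    exact hs hτ.symm
  obtain ⟨a, -, ha⟩ := root_eq he hτ0 (hτ.trans h1.symm)
  rw [br, ha, om_dvd hq (per_dvd hq g), ← pow_mul, mul_assoc, per_mul g]

theorem br_cont {m0 : ℂ} (hm : ‖m0‖ < 1) {q : ℕ} (hq : 1 ≤ q) {r : ℝ} (hr : 0 < r)
    {g : ℂ → ℂ} (hg : ContinuousOn g (pb r)) :
    ContinuousOn (br m0 q g) {s | s ≠ 0 ∧ ‖s‖ ^ per q g < r ^ q / 2} := by
  rintro s0 ⟨hs0, hs0'⟩
  refine ContinuousAt.continuousWithinAt ?_
  have he : 1 ≤ q / per q g := Nat.div_pos (Nat.le_of_dvd (by omega) (per_dvd hq g)) (per_pos hq g)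
  set e := q / per q g with hedef
  set τ0 : ℂ := s0 ^ ((e : ℂ)⁻¹) with hτ0
  have h1 : τ0 ^ e = s0 := Complex.cpow_nat_inv_pow _ (by omega)
  have hτ : ContinuousAt (fun s : ℂ => τ0 * (s / s0) ^ ((e : ℂ)⁻¹)) s0 := by
    refine continuousAt_const.mul (ContinuousAt.cpow (continuousAt_id.div continuousAt_const hs0)
      continuousAt_const ?_)
    simp [div_self hs0]
  have hτs : ∀ s : ℂ, (τ0 * (s / s0) ^ ((e : ℂ)⁻¹)) ^ e = s := fun s => by
    rw [mul_pow, h1, Complex.cpow_nat_inv_pow _ (by omega)]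
    field_simp
  have hev : br m0 q g =ᶠ[𝓝 s0] fun s =>
      g (τ0 * (s / s0) ^ ((e : ℂ)⁻¹) * cc m0 q (s ^ per q g)) := by
    filter_upwards [isOpen_ne.mem_nhds hs0] with s hs
    exact br_eq hq g hs (hτs s)
  refine ContinuousAt.congr ?_ hev.symm
  have hz0 : s0 ^ per q g ≠ 0 := pow_ne_zero _ hs0
  have h2 : ContinuousAt (fun s : ℂ => τ0 * (s / s0) ^ ((e : ℂ)⁻¹) * cc m0 q (s ^ per q g)) s0 :=
    hτ.mul (ContinuousAt.comp (g := cc m0 q) (f := fun s : ℂ => s ^ per q g) (cc_cont hm hz0)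
      (continuous_pow _).continuousAt)
  have hm0 : (τ0 * (s0 / s0) ^ ((e : ℂ)⁻¹) * cc m0 q (s0 ^ per q g)) ∈ pb r := by
    refine (cc_mul hm hq hr hz0 (by rwa [norm_pow]) ?_).1
    have : q = e * per q g := (Nat.div_mul_cancel (per_dvd hq g)).symm
    conv_lhs => rw [this]
    rw [pow_mul, hτs]
  exact ContinuousAt.comp (g := g) (hg.continuousAt ((isOpen_pb r).mem_nhds hm0)) h2

/-- ORB_statement -/
theorem orb_main (m0 : ℂ) (hm : ‖m0‖ < 1) (V : ℂ → Multiset ℂ) (q : ℕ) (r : ℝ)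
    (S : Multiset (ℂ → ℂ)) (hq : 1 ≤ q) (hr : 0 < r) (hc : ∀ f ∈ S, ContinuousOn f (pb r))
    (hd : ∀ f ∈ S, ∀ h ∈ S, (∀ t ∈ pb r, f t = h t) ∨ ∀ t ∈ pb r, f t ≠ h t)
    (hV : ∀ t ∈ pb r, ∀ z, z + m0 * (starRingEnd ℂ) z = t ^ q → S.map (fun f => f t) = V z) :
    ∃ δ > 0, ∃ (n : ℕ) (k μ : Fin n → ℕ) (W : Fin n → ℂ → ℂ),
    (∀ l, 1 ≤ k l ∧ 1 ≤ μ l) ∧ S.card = ∑ l, k l * μ l ∧
    (∀ l, ContinuousOn (W l) {s | s ≠ 0 ∧ ‖s‖ ^ k l < δ}) ∧
    (∀ l l' s s', s ≠ 0 → ‖s‖ ^ k l < δ → s ^ k l = s' ^ k l' → W l s = W l' s' →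
      l = l' ∧ s = s') ∧
    ∀ z, z ≠ 0 → ‖z‖ < δ → ∀ s : Fin n → ℂ, (∀ l, s l ^ k l = z) →
      V z = ∑ l, μ l • ∑ j ∈ Finset.range (k l),
        {W l (Complex.exp (2 * Real.pi * Complex.I * j / k l) * s l)} := by
  classical
  -- normalisation
  set nz : (ℂ → ℂ) → ℂ → ℂ := fun f => (pb r).indicator f with hnz
  have hnz1 : ∀ f, ∀ t ∈ pb r, nz f t = f t := fun f t ht => indicator_of_mem ht f
  have hnz0 : ∀ f, ∀ t ∉ pb r, nz f t = 0 := fun f t ht => indicator_of_notMem ht f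
  set D : Finset (ℂ → ℂ) := (S.map nz).toFinset with hDdef
  have hmemD : ∀ f, f ∈ D ↔ ∃ f0 ∈ S, nz f0 = f := fun f => by
    rw [hDdef, Multiset.mem_toFinset, Multiset.mem_map]
  have hcD : ∀ f ∈ D, ContinuousOn f (pb r) := fun f hf => by
    obtain ⟨f0, hf0, rfl⟩ := (hmemD f).1 hf
    exact (hc f0 hf0).congr (hnz1 f0)
  have hdD : ∀ f ∈ D, ∀ h ∈ D, ∀ t ∈ pb r, f t = h t → f = h := by
    intro f hf h hh t ht hft
    obtain ⟨f0, hf0, rfl⟩ := (hmemD f).1 hf
    obtain ⟨h0, hh0, rfl⟩ := (hmemD h).1 hh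
    rw [hnz1 f0 t ht, hnz1 h0 t ht] at hft
    rcases hd f0 hf0 h0 hh0 with h1 | h1
    · funext x
      by_cases hx : x ∈ pb r
      · rw [hnz1 _ x hx, hnz1 _ x hx, h1 x hx]
      · rw [hnz0 _ x hx, hnz0 _ x hx]
    · exact absurd hft (h1 t ht)
  have hmap : ∀ t ∈ pb r, (S.map nz).map (fun f => f t) = S.map fun f => f t := by
    intro t ht
    rw [Multiset.map_map]
    exact Multiset.map_congr rfl fun f _ => hnz1 f t ht
  -- surjectivity of `z ↦ z + m0 conj z`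
  have hsurj : ∀ w : ℂ, ∃ z, z + m0 * (starRingEnd ℂ) z = w := by
    intro w
    have h1 : (1 - m0 * (starRingEnd ℂ) m0) ≠ 0 := by
      intro h
      have h2 : m0 * (starRingEnd ℂ) m0 = 1 := (sub_eq_zero.1 h).symm
      have h3 : ‖m0 * (starRingEnd ℂ) m0‖ = 1 := by rw [h2, norm_one]
      rw [norm_mul, RCLike.norm_conj] at h3
      nlinarith [norm_nonneg m0]
    have h1' : (1 - (starRingEnd ℂ) m0 * m0) ≠ 0 := by rwa [mul_comm]
    refine ⟨(w - m0 * (starRingEnd ℂ) w) / (1 - m0 * (starRingEnd ℂ) m0), ?_⟩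
    simp only [map_div₀, map_sub, map_mul, map_one, Complex.conj_conj]
    field_simp
    ring
  have hrot : ∀ t ∈ pb r, ∀ j : ℕ, (S.map nz).map (fun f => f (om q ^ j * t)) =
      (S.map nz).map fun f => f t := by
    intro t ht j
    obtain ⟨z, hz⟩ := hsurj (t ^ q)
    rw [hmap t ht, hmap _ (om_pb j ht), hV t ht z hz, hV _ (om_pb j ht) z]
    rw [hz, mul_pow, ← pow_mul, mul_comm j q, pow_mul, om_pow hq, one_pow, one_mul]
  have hout : ∀ f ∈ D, ∀ t ∉ pb r, f t = 0 := fun f hf t ht => by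
    obtain ⟨f0, hf0, rfl⟩ := (hmemD f).1 hf
    exact hnz0 f0 t ht
  have hompb : ∀ t, om q * t ∈ pb r ↔ t ∈ pb r := by
    intro t
    rw [mem_pb, mem_pb, norm_mul, norm_om, one_mul, mul_ne_zero_iff]
    exact ⟨fun h => ⟨h.1, h.2.2⟩, fun h => ⟨h.1, om_ne q, h.2⟩⟩
  have hD : ∀ f ∈ D, rho q f ∈ D := by
    intro f hf
    obtain ⟨h, hh, hhf⟩ := glob hr D hcD hdD (rho q f)
      ((hcD f hf).comp (continuous_const.mul continuous_id).continuousOn
        fun t ht => (hompb t).2 ht) (by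
        intro t ht
        have h1 : f (om q ^ 1 * t) ∈ (S.map nz).map fun f => f (om q ^ 1 * t) :=
          Multiset.mem_map_of_mem _ (Multiset.mem_toFinset.1 hf)
        rw [hrot t ht 1, Multiset.mem_map] at h1
        obtain ⟨h, hh, h2⟩ := h1
        exact ⟨h, Multiset.mem_toFinset.2 hh, by rw [h2, pow_one, rho]⟩)
    have : h = rho q f := by
      funext t
      by_cases ht : t ∈ pb r
      · exact hhf t ht
      · rw [hout h hh t ht, rho, hout f hf _ (fun h => ht ((hompb t).1 h))]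
    rw [← this]
    exact hh
  have hcount1 : ∀ t ∈ pb r, ∀ f ∈ D, ((S.map nz).map fun f => f t).count (f t) =
      (S.map nz).count f := by
    intro t ht f hf
    refine Multiset.count_map_eq_count (fun f : ℂ → ℂ => f t) _ ?_ f (Multiset.mem_toFinset.1 hf)
    intro a ha b hb hab
    exact hdD a (Multiset.mem_toFinset.2 ha) b (Multiset.mem_toFinset.2 hb) t ht hab
  have hne : (((r / 2 : ℝ)) : ℂ) ∈ pb r := by
    rw [mem_pb]
    refine ⟨?_, by exact_mod_cast (by positivity : (r / 2 : ℝ) ≠ 0)⟩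
    rw [Complex.norm_real, Real.norm_eq_abs, abs_of_pos (by positivity)]
    linarith
  have hcount : ∀ f ∈ D, ∀ j : ℕ, (S.map nz).count ((rho q)^[j] f) = (S.map nz).count f := by
    intro f hf j
    rw [← hcount1 _ hne _ (iter_mem hD hf j), rho_iter, ← hrot _ hne j,
      hcount1 _ (om_pb j hne) f hf]
  -- the data
  set φ := (reps q hq D).equivFin with hφ
  set G : Fin (reps q hq D).card → ℂ → ℂ := fun l => (φ.symm l).1 with hG
  have hGm : ∀ l, G l ∈ D ∧ rep q hq (G l) = G l := fun l => reps_mem hq hD (φ.symm l).2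
  have hsum : ∀ {M : Type} [AddCommMonoid M] (F : (ℂ → ℂ) → M),
      ∑ f ∈ D, F f = ∑ l, ∑ j ∈ Finset.range (per q (G l)), F ((rho q)^[j] (G l)) := by
    intro M _ F
    rw [orbit_sum hq hD F, ← Finset.sum_coe_sort]
    exact Fintype.sum_equiv φ _ _ fun x => by simp [hG]
  have hper : ∀ l, q / per q (G l) * per q (G l) = q := fun l =>
    Nat.div_mul_cancel (per_dvd hq _)
  have he : ∀ l, 1 ≤ q / per q (G l) := fun l =>
    Nat.div_pos (Nat.le_of_dvd (by omega) (per_dvd hq _)) (per_pos hq _)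
  refine ⟨r ^ q / 2, by positivity, (reps q hq D).card, fun l => per q (G l),
    fun l => (S.map nz).count (G l), fun l => br m0 q (G l), ?_, ?_, ?_, ?_, ?_⟩
  · intro l
    exact ⟨per_pos hq _, Multiset.one_le_count_iff_mem.2 (Multiset.mem_toFinset.1 (hGm l).1)⟩
  · rw [← Multiset.card_map nz S, ← Multiset.toFinset_sum_count_eq, ← hDdef, hsum]
    refine Finset.sum_congr rfl fun l _ => ?_
    rw [Finset.sum_congr rfl fun j _ => hcount _ (hGm l).1 j, Finset.sum_const,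
      Finset.card_range, smul_eq_mul]
  · exact fun l => br_cont hm hq hr (hcD _ (hGm l).1)
  · intro l l' s s' hs hsδ hss hW
    beta_reduce at hsδ hss hW
    set z := s ^ per q (G l) with hz
    have hz0 : z ≠ 0 := pow_ne_zero _ hs
    have hs' : s' ≠ 0 := by
      rintro rfl
      rw [zero_pow (by have := per_pos hq (G l'); omega)] at hss
      exact hz0 hss
    obtain ⟨τ, hτ⟩ : ∃ τ : ℂ, τ ^ (q / per q (G l)) = s :=
      ⟨_, Complex.cpow_nat_inv_pow s (by have := he l; omega)⟩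
    obtain ⟨τ', hτ'⟩ : ∃ τ : ℂ, τ ^ (q / per q (G l')) = s' :=
      ⟨_, Complex.cpow_nat_inv_pow s' (by have := he l'; omega)⟩
    have h1 : τ ^ q = z := by
      conv_lhs => rw [← hper l]
      rw [pow_mul, hτ]
    have h1' : τ' ^ q = z := by
      conv_lhs => rw [← hper l']
      rw [pow_mul, hτ', hss]
    have hτ0 : τ ≠ 0 := by
      rintro rfl
      rw [zero_pow (by omega)] at h1
      exact hz0 h1.symm
    obtain ⟨a, -, ha⟩ := root_eq hq hτ0 (h1.trans h1'.symm)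
    rw [br_eq hq _ hs hτ, br_eq hq _ hs' hτ', ← hz, ← hss, ha, mul_assoc] at hW
    have hpb := (cc_mul hm hq hr hz0 (by rwa [hz, norm_pow]) h1).1
    have h2 : G l = (rho q)^[a] (G l') := by
      refine hdD _ (hGm l).1 _ (iter_mem hD (hGm l').1 a) _ hpb ?_
      rw [hW, rho_iter]
    have h3 : G l = G l' := by
      rw [← (hGm l).2, h2, rep_eq, (hGm l').2]
    have hll : l = l' := by
      have : φ.symm l = φ.symm l' := Subtype.ext h3
      exact φ.symm.injective this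
    subst hll
    refine ⟨rfl, ?_⟩
    obtain ⟨b, hb⟩ := per_iter h2.symm
    rw [← hτ, ← hτ', ha, mul_pow, hb, ← pow_mul]
    rw [show per q (G l) * b * (q / per q (G l)) = q / per q (G l) * per q (G l) * b by ring,
      hper l, pow_mul, om_pow hq, one_pow, one_mul]
  · intro z hz0 hzδ s hs
    beta_reduce at hs ⊢
    obtain ⟨t0, ht0⟩ : ∃ τ : ℂ, τ ^ q = z := ⟨_, Complex.cpow_nat_inv_pow z (by omega)⟩
    obtain ⟨hpb, hA⟩ := cc_mul hm hq hr hz0 hzδ ht0
    have ht00 : t0 ≠ 0 := by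
      rintro rfl
      rw [zero_pow (by omega)] at ht0
      exact hz0 ht0.symm
    rw [← hV _ hpb z hA, ← hmap _ hpb, ← Multiset.sum_map_singleton ((S.map nz).map _),
      Multiset.map_map, Finset.sum_multiset_map_count, ← hDdef, hsum]
    refine Finset.sum_congr rfl fun l _ => ?_
    rw [Finset.sum_congr rfl fun j _ => by rw [hcount _ (hGm l).1 j], ← Finset.smul_sum]
    congr 1
    obtain ⟨τ, hτ⟩ : ∃ τ : ℂ, τ ^ (q / per q (G l)) = s l :=
      ⟨_, Complex.cpow_nat_inv_pow (s l) (by have := he l; omega)⟩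
    have h1 : τ ^ q = z := by
      conv_lhs => rw [← hper l]
      rw [pow_mul, hτ, hs]
    obtain ⟨a, -, ha⟩ := root_eq hq ht00 (ht0.trans h1.symm)
    rw [← sum_shift _ _ a]
    · refine Finset.sum_congr rfl fun j _ => ?_
      have hexp : Complex.exp (2 * Real.pi * Complex.I * j / (per q (G l))) =
          om (per q (G l)) ^ j := by
        rw [om, ← Complex.exp_nat_mul]
        congr 1
        ring
      have hsl : s l ≠ 0 := by
        intro h
        have := hs l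
        rw [h, zero_pow (by have := per_pos hq (G l); omega)] at this
        exact hz0 this.symm
      have homk : om (per q (G l)) = om q ^ (q / per q (G l)) := by
        have := om_dvd (q := q) (k := q / per q (G l)) hq ⟨_, (hper l).symm⟩
        rwa [Nat.div_div_self (per_dvd hq _) (by omega)] at this
      have hjs : (om q ^ j * τ) ^ (q / per q (G l)) = om (per q (G l)) ^ j * s l := by
        rw [mul_pow, hτ, homk, ← pow_mul, ← pow_mul, mul_comm j]
      rw [hexp, br_eq hq (G l) (mul_ne_zero (pow_ne_zero _ (om_ne _)) hsl) hjs, mul_pow, hs,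
        ← pow_mul, mul_comm j, pow_mul, om_pow (per_pos hq _), one_pow, one_mul, ha]
      simp only [Function.comp]
      rw [rho_iter, pow_add]
      congr 2
      ring
    · intro j
      simp only [Function.comp]
      rw [Function.iterate_add_apply, iter_per]

end Vale.Agent.P247.H914
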